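import Vale.Agent.P141.H302.BornL
import Vale.Agent.P141.H886.SumU
import Vale.Agent.P141.H419.WFamA

/-!
# P141, line (A), increasing part: the births as sums `SumL`, `SumU`

`bN q` : births of the time `k + 1` at the scale `min (k + q) K`; `sumL_b`, `sumL_b1` (lag `q + 1`),
`sumU_b`, `sumU_b1` (weights `(3/4)^q`); `nmB_bN`, `Wn_bN` : the numbers of `H419.WFamR` for any row
pieces inside the changed squares are at most `bN`.
-/

namespace Vale.Agent.P141.H302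

open Finset Matrix
open Vale.Agent.P141.PL (Pt iv ix cx mem_iv)
open Vale.Agent.P141.PL.H315 (Tri)
open Vale.Agent.P141.H652 (Th)
open Vale.Agent.P141.H677 (rt KT)
open Vale.Agent.P141.H505.Sk1 (Ch eT)
open Vale.Agent.P141.H408
open Vale.Agent.P141.H808 (thS cS)
open Vale.Agent.P141.H457 (rs)
open Vale.Agent.P141.H419.WFamR (Wn nmB)
open Vale.Agent.P141.H886 (NumF SumQ SumU SumL)

noncomputable section

open scoped Classical

set_option linter.unusedVariables false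

/-- births of the time `k + 1` at the scale `min (k + q) K` -/
def bN (q : ℕ) : NumF := fun ι _ _ p n ez F1 F2 F3 o K x s r U g u v Q1 Q2 Q3 x0 =>
  ∑ k ∈ Ico 0 K, ∑ x1 ∈ iv K (cx K x).1, ∑ z ∈ iv K (cx K x).2.2,
    (if Ch (cS p ez U K v F2 x0) k (ix k x1) (ix k z) then
      eT (cS p ez U K v F2 x0 (k + 1)) (thS p s r o K x u x0) (min (k + q) K) x1 z else 0)

/-- **births, every lag** -/
theorem sumL_b : SumL 1 bN := by
  refine PairQ.toU (PairQ.imp fBornL ?_)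
  intro ι _ _ p n ez F1 F2 F3 o K x s r U g u v Q1 Q2 Q3 X h q
  unfold H886.SumQ
  rw [one_mul]
  exact h q

/-- **births, every lag, one scale more** -/
theorem sumL_b1 : SumL 1 fun q => bN (q + 1) := by
  refine PairQ.toU (PairQ.imp fBornL ?_)
  intro ι _ _ p n ez F1 F2 F3 o K x s r U g u v Q1 Q2 Q3 X h q
  unfold H886.SumQ
  rw [one_mul]
  exact h (q + 1)

/-- **births, weights of the lags** -/
theorem sumU_b :
    SumU 1 fun ι _ _ p n ez F1 F2 F3 o K x s r U g u v Q1 Q2 Q3 x0 =>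
      ∑ l ∈ range (K + 1), (3 / 4 : ℝ) ^ l *
        bN l ι p n ez F1 F2 F3 o K x s r U g u v Q1 Q2 Q3 x0 := sumL_b.wS

/-- **births, weights of the lags, one scale more** -/
theorem sumU_b1 :
    SumU 1 fun ι _ _ p n ez F1 F2 F3 o K x s r U g u v Q1 Q2 Q3 x0 =>
      ∑ l ∈ range (K + 1), (3 / 4 : ℝ) ^ l *
        bN (l + 1) ι p n ez F1 F2 F3 o K x s r U g u v Q1 Q2 Q3 x0 := sumL_b1.wS

/-- **births, lag 0** -/
theorem sumU_b0 : SumU 1 (bN 0) := by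
  refine PairQ.toU (PairQ.imp fBornL ?_)
  intro ι _ _ p n ez F1 F2 F3 o K x s r U g u v Q1 Q2 Q3 X h
  unfold H886.SumQ
  rw [one_mul]
  exact h 0

section pt

variable {ι : Type} [Fintype ι] [DecidableEq ι]

/-- the move of the weight without the lower bound -/
abbrev tS (p : H401.Num) (s r : ℝ) (o : ℤ) (K : ℕ) (x : Pt) (u : ℤ → ℤ → ι → ℝ) (x0 : ℤ) :
    ℕ → ℤ → ℤ → Matrix ι ι ℝ :=
  fun a x1 m => Th (p.lam s r) K (cx K x).2.1 (KT (p.lam s r) u x1) (o - 2) x0 x1 a m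

variable {p : H401.Num} {s r ez : ℝ} {o : ℤ} {K : ℕ} {x : Pt} {U : Tri} {u v : ℤ → ℤ → ι → ℝ}
  {F2 : ℕ → Pt → ℝ} {x0 : ℤ}

theorem eT_nn (ht : 0 < p.t) (hs : 0 < s) (hr : 1 ≤ r) (c : ℤ → ℤ → ι → ℝ) (a : ℕ) (x1 z : ℤ) :
    0 ≤ eT c (thS p s r o K x u x0) a x1 z :=
  H808.eT_nonneg (fun x1 k m => H808.thS_pd ht hs hr o K x u x0 x1 k m) c a x1 z

/-- the energy of the born row pieces -/
theorem Wn_rs (ht : 0 < p.t) (hs : 0 < s) (hr : 1 ≤ r) {P : ℕ → ℤ → ℤ → Prop}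
    {c : ℕ → ℤ → ℤ → ι → ℝ} (hP : ∀ k w m, P k w m → Ch c k m (ix k w)) (k a : ℕ) :
    Wn K (cx K x).2.2 (cx K x).1 (beI p r) (tS p s r o K x u x0) (rs (P k) k (c (k + 1))) a ≤
      ∑ x1 ∈ iv K (cx K x).1, ∑ z ∈ iv K (cx K x).2.2,
        (if Ch c k (ix k x1) (ix k z) then
          eT (c (k + 1)) (thS p s r o K x u x0) a x1 z else 0) := by
  unfold H419.WFamR.Wn
  refine sum_le_sum fun x1 _ => sum_le_sum fun z _ => ?_
  by_cases h : P k z (ix k x1)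
  · have h1 : rs (P k) k (c (k + 1)) x1 z = c (k + 1) x1 z := if_pos h
    rw [h1, if_pos (hP k z _ h)]
    exact le_rfl
  · have h1 : rs (P k) k (c (k + 1)) x1 z = 0 := if_neg h
    rw [h1, zero_dotProduct]
    split_ifs
    · exact eT_nn ht hs hr _ _ _ _
    · exact le_rfl

/-- **births of the lag `q`, letters of `H419`** -/
theorem nmB_bN (ht : 0 < p.t) (hs : 0 < s) (hr : 1 ≤ r) {P : ℕ → ℤ → ℤ → Prop}
    (hP : ∀ k w m, P k w m → Ch (cS p ez U K v F2 x0) k m (ix k w)) (q n : ℕ)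
    (F1 F3 : ℕ → Pt → ℝ) (g : ℤ → ℤ → ℝ) (Q1 Q2 Q3 : ℕ → Pt → Prop) :
    nmB K (cx K x).2.2 (cx K x).1 (beI p r) (tS p s r o K x u x0) P (cS p ez U K v F2 x0) q ≤
      bN (q + 1) ι p n ez F1 F2 F3 o K x s r U g u v Q1 Q2 Q3 x0 := by
  unfold H419.WFamR.nmB bN
  refine (sum_le_sum fun k _ => Wn_rs ht hs hr hP k (k + 1 + q)).trans ?_
  have h1 : ∀ k ∈ Ico 0 (K - q), ∑ x1 ∈ iv K (cx K x).1, ∑ z ∈ iv K (cx K x).2.2,
      (if Ch (cS p ez U K v F2 x0) k (ix k x1) (ix k z) then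
        eT (cS p ez U K v F2 x0 (k + 1)) (thS p s r o K x u x0) (k + 1 + q) x1 z else 0) =
      ∑ x1 ∈ iv K (cx K x).1, ∑ z ∈ iv K (cx K x).2.2,
      (if Ch (cS p ez U K v F2 x0) k (ix k x1) (ix k z) then
        eT (cS p ez U K v F2 x0 (k + 1)) (thS p s r o K x u x0) (min (k + (q + 1)) K) x1 z
          else 0) := by
    intro k hk
    rw [mem_Ico] at hk
    rw [show min (k + (q + 1)) K = k + 1 + q by omega]
  rw [sum_congr rfl h1]
  refine sum_le_sum_of_subset_of_nonneg (Ico_subset_Ico_right (Nat.sub_le K q)) fun k _ _ => ?_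
  refine sum_nonneg fun x1 _ => sum_nonneg fun z _ => ?_
  split_ifs
  · exact eT_nn ht hs hr _ _ _ _
  · exact le_rfl

/-- **births at the scale of the hub, letters of `H419`** -/
theorem Wn_bN (ht : 0 < p.t) (hs : 0 < s) (hr : 1 ≤ r) {P : ℕ → ℤ → ℤ → Prop}
    (hP : ∀ k w m, P k w m → Ch (cS p ez U K v F2 x0) k m (ix k w)) (n : ℕ)
    (F1 F3 : ℕ → Pt → ℝ) (g : ℤ → ℤ → ℝ) (Q1 Q2 Q3 : ℕ → Pt → Prop) :
    ∑ k ∈ Ico 0 K, Wn K (cx K x).2.2 (cx K x).1 (beI p r) (tS p s r o K x u x0)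
        (rs (P k) k (cS p ez U K v F2 x0 (k + 1))) k ≤
      bN 0 ι p n ez F1 F2 F3 o K x s r U g u v Q1 Q2 Q3 x0 := by
  unfold bN
  refine sum_le_sum fun k hk => (Wn_rs ht hs hr hP k k).trans (le_of_eq ?_)
  rw [mem_Ico] at hk
  rw [show min (k + 0) K = k by omega]

/-- the row pieces which change -/
def Pr (c : ℕ → ℤ → ℤ → ι → ℝ) (k : ℕ) (w m : ℤ) : Prop := ∃ x ∈ iv k m, c (k + 1) x w ≠ c k x w

theorem pr_not {c : ℕ → ℤ → ℤ → ι → ℝ} {N : ℕ} : ∀ k < N, ∀ w m, ¬ Pr c k w m →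
    ∀ x ∈ iv k m, c (k + 1) x w = c k x w := by
  intro k _ w m h x hx
  by_contra h1
  exact h ⟨x, hx, h1⟩

theorem pr_ch {c : ℕ → ℤ → ℤ → ι → ℝ} (k : ℕ) (w m : ℤ) (h : Pr c k w m) : Ch c k m (ix k w) := by
  obtain ⟨x, hx, h1⟩ := h
  exact ⟨x, hx, w, mem_iv.2 rfl, h1⟩

end pt

end

end Vale.Agent.P141.H302
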