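import Vale.Agent.P141.H576.FBorn
import Vale.Agent.P141.H80.SupA
import Vale.Agent.P141.H865.KfW
import Vale.Agent.P141.H408.SkelTI3

/-!
# P141, line (A), increasing part: the births of the stack against the weight at coarser scales

* `FBornS` : the births of the time `k + 1` at the scale `k` against the weight of any scale
  `σ k ∈ [k, K]`, one number for every `σ`; `fBornS`;
* `FBornL` : the scale `min (k + l) K`, every lag `l`; `fBornL`.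
-/

namespace Vale.Agent.P141.H302

open Finset Matrix
open Vale.Agent.P141.PL (Pt iv ix cb cx mem_iv mem_cb ix_ix)
open Vale.Agent.P141.PL.H315 (Tri avg)
open Vale.Agent.P141.H48 (US ES BSl sst)
open Vale.Agent.P141.H305 (Cls ClsM kapM)
open Vale.Agent.P141.H652 (Th Th_le_two)
open Vale.Agent.P141.H677 (GT KT tr_T kF rt)
open Vale.Agent.P141.H505.Sk1 (Ch eT)
open Vale.Agent.P141.H408 (beI PairQ)
open Vale.Agent.P141.H808 (wl thS cS rt_card pot_root' gap_le)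
open Vale.Agent.P141.H681 (mxT mxT_nonneg le_mxT sum_mxT)
open Vale.Agent.P141.H224 (cq wf)
open Vale.Agent.P141.H865.Kf (QL line1 tailL)

noncomputable section

open scoped Classical

set_option linter.unusedVariables false

/-- **births against the weight at the scales** `σ k ≥ k` -/
def FBornS : Prop := PairQ fun ι _ _ p _ ez _ F2 _ o K x s r U _ u v _ _ _ X =>
  ∀ σ : ℕ → ℕ, (∀ k < K, k ≤ σ k ∧ σ k ≤ K) →
  ∑ t ∈ rt (cx K x), ∑ x0 ∈ iv K t, ∑ k ∈ Ico 0 K,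
    ∑ x1 ∈ iv K (cx K x).1, ∑ z ∈ iv K (cx K x).2.2,
      (if Ch (cS p ez U K v F2 x0) k (ix k x1) (ix k z) then
        eT (cS p ez U K v F2 x0 (k + 1)) (thS p s r o K x u x0) (σ k) x1 z else 0) ≤
    X * (s * 8 ^ K) * (p.t / r) ^ (p.e0 / 2)

/-- **births, every lag** -/
def FBornL : Prop := PairQ fun ι _ _ p _ ez _ F2 _ o K x s r U _ u v _ _ _ X =>
  ∀ l : ℕ, ∑ t ∈ rt (cx K x), ∑ x0 ∈ iv K t, ∑ k ∈ Ico 0 K,
    ∑ x1 ∈ iv K (cx K x).1, ∑ z ∈ iv K (cx K x).2.2,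
      (if Ch (cS p ez U K v F2 x0) k (ix k x1) (ix k z) then
        eT (cS p ez U K v F2 x0 (k + 1)) (thS p s r o K x u x0) (min (k + l) K) x1 z else 0) ≤
    X * (s * 8 ^ K) * (p.t / r) ^ (p.e0 / 2)

section pt

variable {ι : Type} [Fintype ι] [DecidableEq ι]

/-- the energy of the stack at a point, time `k + 1`, any scale -/
theorem eT_cS {p : H401.Num} {s r ez : ℝ} (hez : 0 < ez) (o : ℤ) (K : ℕ) (x : Pt) (U : Tri)
    (u v : ℤ → ℤ → ι → ℝ) (F2 : ℕ → Pt → ℝ) (x0 : ℤ) {k : ℕ} (hk : k < K) (a : ℕ) (x1 z : ℤ) :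
    eT (cS p ez U K v F2 x0 (k + 1)) (thS p s r o K x u x0) a x1 z =
      wl p ez U K F2 x1 z (k + 1) x0 *
        (v x1 z ⬝ᵥ thS p s r o K x u x0 x1 a (ix a z) *ᵥ v x1 z) := by
  unfold H505.Sk1.eT
  rw [H808.cS_succ p ez U K v F2 x0 (show k + 1 ≤ K from hk) x1 z, H808.quad_smul, H808.q_sq hez]

/-- the weight is at most `be + 2` -/
theorem th_le {p : H401.Num} (ht : 0 < p.t) {s r : ℝ} (hs : 0 < s) (hr : 1 ≤ r) (o : ℤ) (K : ℕ)
    (x : Pt) (u : ℤ → ℤ → ι → ℝ) (x0 x1 : ℤ) (k : ℕ) (m : ℤ) (w : ι → ℝ) :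
    w ⬝ᵥ thS p s r o K x u x0 x1 k m *ᵥ w ≤ (beI p r + 2) * (w ⬝ᵥ w) := by
  have hl : 0 < p.lam s r := H401.Num.lam_pos (p := p) ht hs hr
  have h1 := H420.quad_nonneg (Th_le_two (M := (cx K x).2.1) (tr_T hl K u x1) (o - 2) x0 x1 k m) w
  rw [sub_mulVec, smul_mulVec, one_mulVec, dotProduct_sub, dotProduct_smul, smul_eq_mul] at h1
  have e : w ⬝ᵥ thS p s r o K x u x0 x1 k m *ᵥ w = beI p r * (w ⬝ᵥ w) +
      w ⬝ᵥ Th (p.lam s r) K (cx K x).2.1 (KT (p.lam s r) u x1) (o - 2) x0 x1 k m *ᵥ w := by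
    show w ⬝ᵥ (beI p r • (1 : Matrix ι ι ℝ) +
      Th (p.lam s r) K (cx K x).2.1 (KT (p.lam s r) u x1) (o - 2) x0 x1 k m) *ᵥ w = _
    rw [add_mulVec, smul_mulVec, one_mulVec, dotProduct_add, dotProduct_smul, smul_eq_mul]
  rw [e]
  linarith

/-- the weight on a cell is at most the majorant -/
theorem th_mx {p : H401.Num} (ht : 0 < p.t) {s r : ℝ} (hs : 0 < s) (hr : 1 ≤ r) (o : ℤ) (K : ℕ)
    (x : Pt) (u : ℤ → ℤ → ι → ℝ) {x0 x' : ℤ} (x1 z : ℤ) {k : ℕ} (hk : k ≤ K)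
    (hx : ix k x' = ix k x0) (w : ι → ℝ) (J : ℕ) :
    w ⬝ᵥ thS p s r o K x u x' x1 k (ix k z) *ᵥ w ≤ beI p r * (w ⬝ᵥ w) +
      mxT (p.lam s r) K (cx K x).2.1 (KT (p.lam s r) u x1) w J (o - 2) x1 z x0 := by
  have hl : 0 < p.lam s r := H401.Num.lam_pos (p := p) ht hs hr
  have h1 := le_mxT (M := (cx K x).2.1) (tr_T hl K u x1) w J (o - 2) x1 z hk hx
  have e : w ⬝ᵥ thS p s r o K x u x' x1 k (ix k z) *ᵥ w = beI p r * (w ⬝ᵥ w) +
      w ⬝ᵥ Th (p.lam s r) K (cx K x).2.1 (KT (p.lam s r) u x1) (o - 2) x' x1 k (ix k z) *ᵥ w := by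
    show w ⬝ᵥ (beI p r • (1 : Matrix ι ι ℝ) +
      Th (p.lam s r) K (cx K x).2.1 (KT (p.lam s r) u x1) (o - 2) x' x1 k (ix k z)) *ᵥ w = _
    rw [add_mulVec, smul_mulVec, one_mulVec, dotProduct_add, dotProduct_smul, smul_eq_mul]
  rw [e]
  linarith

/-- the mass at the root -/
theorem mass_root {K : ℕ} {x : Pt} {s r P : ℝ} {U : Tri} {g : ℤ → ℤ → ℝ} {u v : ℤ → ℤ → ι → ℝ}
    (C : Cls K x s r P U g u v) :
    ∑ x1 ∈ iv K (cx K x).1, ∑ x3 ∈ iv K (cx K x).2.2, v x1 x3 ⬝ᵥ v x1 x3 ≤ s * 4 ^ K := by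
  have h2 : ∑ x1 ∈ iv K (cx K x).1, ∑ x3 ∈ iv K (cx K x).2.2, U.2.1 (x1, x3) ^ 2 ≤
      s * 4 ^ K := by
    have h3 := C.U_v2
    unfold PL.H315.A2 at h3
    rw [H769.iv_pt, H769.iv_pt, H550.avg_prod] at h3
    have h4 : ∑ x1 ∈ iv K (cx K x).1, ∑ x3 ∈ iv K (cx K x).2.2, U.2.1 (x1, x3) ^ 2 =
        4 ^ K * avg (iv K (ix K x.1)) fun z => avg (iv K (ix K x.2.2)) fun y =>
          U.2.1 (z, y) ^ 2 := by
      have h5 : (4 : ℝ) ^ K = 2 ^ K * 2 ^ K := by rw [← mul_pow]; norm_num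
      rw [h5, mul_assoc, ← H338.sum_iv' K (ix K x.1), mul_sum]
      refine sum_congr rfl fun z _ => ?_
      rw [← H338.sum_iv']
      rfl
    rw [h4, mul_comm s]
    exact mul_le_mul_of_nonneg_left h3 (by positivity)
  refine le_trans (sum_le_sum fun x1 hx1 => sum_le_sum fun x3 hx3 => ?_) h2
  change x1 ∈ iv K (ix K x.1) at hx1
  change x3 ∈ iv K (ix K x.2.2) at hx3
  rw [← H769.iv_pt] at hx1 hx3
  exact C.v_le x1 hx1 x3 hx3


/-- births on one line -/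
theorem line_born {p : H401.Num} (ht : 0 < p.t) {s r ez cP : ℝ} (hs : 0 < s) (hr : 1 ≤ r)
    (hez : 0 < ez) (o : ℤ) {n K : ℕ} (hKn : K ≤ n) (x : Pt) (U : Tri) (u v : ℤ → ℤ → ι → ℝ)
    {F2 : ℕ → Pt → ℝ} {Q2 : ℕ → Pt → Prop} (q2 : BSl n ez cP F2 Q2) {σ : ℕ → ℕ}
    (hσ : ∀ k < K, k ≤ σ k ∧ σ k ≤ K) (J lam : ℕ) (t x1 z : ℤ) :
    ∑ x0 ∈ iv K t, ∑ k ∈ range K,
      (if QL p.Lm U.2.1 K Q2 (ix K x.1) (ix K x.2.2) k (ix k x0) (ix k x1) (ix k z) then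
        wl p ez U K F2 x1 z (k + 1) x0 *
          (v x1 z ⬝ᵥ thS p s r o K x u x0 x1 (σ k) (ix (σ k) z) *ᵥ v x1 z) else 0) ≤
    lam * 1 * ∑ x0 ∈ iv K t, (beI p r * (v x1 z ⬝ᵥ v x1 z) +
      mxT (p.lam s r) K (cx K x).2.1 (KT (p.lam s r) u x1) (v x1 z) J (o - 2) x1 z x0) +
    1 * ((beI p r + 2) * (v x1 z ⬝ᵥ v x1 z) * ∑ x0 ∈ iv K t,
      ((cq (fun l j => QL p.Lm U.2.1 K Q2 (ix K x.1) (ix K x.2.2) l j (ix l x1) (ix l z)) K 0 x0 -
        lam : ℕ) : ℝ)) := by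
  have hbe : 0 < beI p r := Real.rpow_pos_of_pos (div_pos ht (by linarith)) _
  have hv : 0 ≤ v x1 z ⬝ᵥ v x1 z := H922.dot_self_nonneg _
  refine H80.aff_sup (n := K)
    (a := fun l j => QL p.Lm U.2.1 K Q2 (ix K x.1) (ix K x.2.2) l j (ix l x1) (ix l z))
    (W := fun k x0 => wl p ez U K F2 x1 z (k + 1) x0)
    (X := fun k x0 => v x1 z ⬝ᵥ thS p s r o K x u x0 x1 (σ k) (ix (σ k) z) *ᵥ v x1 z)
    (Φ := fun x0 => beI p r * (v x1 z ⬝ᵥ v x1 z) +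
      mxT (p.lam s r) K (cx K x).2.1 (KT (p.lam s r) u x1) (v x1 z) J (o - 2) x1 z x0)
    zero_le_one (fun k x0 => H808.form_nonneg
      (H808.thS_pd ht hs hr o K x u x0 x1 (σ k) (ix (σ k) z)).posSemidef _)
    (fun k hk x0 => th_le ht hs hr o K x u x0 x1 (σ k) (ix (σ k) z) _)
    (fun x0 => add_nonneg (mul_nonneg hbe.le hv) (mxT_nonneg _ _ _ _ _ _))
    (fun k hk x0 x' hx' => th_mx ht hs hr o K x u x1 z (hσ k hk).2
      (H769.ix_of_le (hσ k hk).1 (mem_iv.1 hx')) _ J)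
    (fun k x0 => H808.wl_nonneg hez U K F2 x1 z (k + 1) x0) (fun k hk j => ?_) lam
  have h1 := line1 (Λ := p.Lm) (a := U.2.1) q2 hKn x1 z k hk j
  have e1 : ∑ x0 ∈ iv k j, wl p ez U K F2 x1 z (k + 1) x0 = ez⁻¹ * ∑ x0 ∈ iv k j,
      wf (fun x0 k z x => kF p.Lm U.2.1 K F2 k (x0, x, z)) x1 (k + 1) x0 z := by
    rw [mul_sum]
    exact sum_congr rfl fun x0 _ => rfl
  rw [e1]
  calc _ ≤ ez⁻¹ * (ez * 2 ^ k) := mul_le_mul_of_nonneg_left h1 (inv_nonneg.2 hez.le)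
    _ = 1 * 2 ^ k := by field_simp

/-- **births over one root** -/
theorem root_born {p : H401.Num} (ht : 0 < p.t) {s r P ez cP : ℝ} (hs : 0 < s) (hr : 1 ≤ r)
    (hez : 0 < ez) (hcP : 0 ≤ cP) (o : ℤ) {n K : ℕ} (hKn : K ≤ n) {x : Pt} {U : Tri}
    {g : ℤ → ℤ → ℝ} {u v : ℤ → ℤ → ι → ℝ}
    {F2 : ℕ → Pt → ℝ} {Q2 : ℕ → Pt → Prop} (q2 : BSl n ez cP F2 Q2) (hcls : Cls K x s r P U g u v)
    {σ : ℕ → ℕ} (hσ : ∀ k < K, k ≤ σ k ∧ σ k ≤ K) (J lam : ℕ) (t : ℤ) :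
    ∑ x0 ∈ iv K t, ∑ k ∈ Ico 0 K,
      ∑ x1 ∈ iv K (cx K x).1, ∑ z ∈ iv K (cx K x).2.2,
        (if Ch (cS p ez U K v F2 x0) k (ix k x1) (ix k z) then
          eT (cS p ez U K v F2 x0 (k + 1)) (thS p s r o K x u x0) (σ k) x1 z else 0) ≤
    lam * ((beI p r + 2 / 2 ^ J) * (s * 8 ^ K)) +
      lam * ∑ x1 ∈ iv K (cx K x).1, ∑ z ∈ iv K (cx K x).2.2, 1 * (2 ^ K *
        (10 * J * (p.lam s r)⁻¹ * (v x1 z ⬝ᵥ GT u x1 K (cx K x).2.1 *ᵥ v x1 z))) +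
      (beI p r + 2) * (4 * p.Lm * s) * (1 - 1 / (cP + 2)) ^ lam * (cP + 2) * 8 ^ K := by
  have hl : 0 < p.lam s r := H401.Num.lam_pos (p := p) ht hs hr
  have hbe : 0 < beI p r := Real.rpow_pos_of_pos (div_pos ht (by linarith)) _
  have hLm : 0 < p.Lm := Real.rpow_pos_of_pos ht _
  have hcd := H215.cd_of_cls (Λ := p.Lm) hcls hLm.le hs.le hez.le hKn q2
  -- the points
  have h1 : ∑ x0 ∈ iv K t, ∑ k ∈ Ico 0 K, ∑ x1 ∈ iv K (cx K x).1, ∑ z ∈ iv K (cx K x).2.2,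
      (if Ch (cS p ez U K v F2 x0) k (ix k x1) (ix k z) then
        eT (cS p ez U K v F2 x0 (k + 1)) (thS p s r o K x u x0) (σ k) x1 z else 0) ≤
      ∑ x1 ∈ iv K (cx K x).1, ∑ z ∈ iv K (cx K x).2.2, ∑ x0 ∈ iv K t, ∑ k ∈ range K,
      (if QL p.Lm U.2.1 K Q2 (ix K x.1) (ix K x.2.2) k (ix k x0) (ix k x1) (ix k z) then
        wl p ez U K F2 x1 z (k + 1) x0 *
          (v x1 z ⬝ᵥ thS p s r o K x u x0 x1 (σ k) (ix (σ k) z) *ᵥ v x1 z) else 0) := by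
    rw [← Finset.range_eq_Ico]
    have e1 : ∀ f : ℤ → ℕ → ℤ → ℤ → ℝ, ∑ x0 ∈ iv K t, ∑ k ∈ range K, ∑ x1 ∈ iv K (cx K x).1,
        ∑ z ∈ iv K (cx K x).2.2, f x0 k x1 z = ∑ x1 ∈ iv K (cx K x).1, ∑ z ∈ iv K (cx K x).2.2,
        ∑ x0 ∈ iv K t, ∑ k ∈ range K, f x0 k x1 z := by
      intro f
      have e2 : ∀ x0 ∈ iv K t, ∑ k ∈ range K, ∑ x1 ∈ iv K (cx K x).1, ∑ z ∈ iv K (cx K x).2.2,
          f x0 k x1 z = ∑ x1 ∈ iv K (cx K x).1, ∑ z ∈ iv K (cx K x).2.2, ∑ k ∈ range K,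
          f x0 k x1 z := fun x0 _ => by
        rw [sum_comm]
        exact sum_congr rfl fun x1 _ => sum_comm
      rw [sum_congr rfl e2, sum_comm]
      exact sum_congr rfl fun x1 _ => sum_comm
    rw [e1]
    refine sum_le_sum fun x1 hx1 => sum_le_sum fun z hz => sum_le_sum fun x0 hx0 =>
      sum_le_sum fun k hk => ?_
    have hk' : k < K := mem_range.1 hk
    have hn : 0 ≤ wl p ez U K F2 x1 z (k + 1) x0 *
        (v x1 z ⬝ᵥ thS p s r o K x u x0 x1 (σ k) (ix (σ k) z) *ᵥ v x1 z) :=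
      mul_nonneg (H808.wl_nonneg hez U K F2 x1 z (k + 1) x0)
        (H808.form_nonneg (H808.thS_pd ht hs hr o K x u x0 x1 (σ k) (ix (σ k) z)).posSemidef _)
    by_cases hc : Ch (cS p ez U K v F2 x0) k (ix k x1) (ix k z)
    · have hQ := H576.ch_cS hKn q2 x0 hk' hc
      rw [if_pos hc, eT_cS hez o K x U u v F2 x0 hk' (σ k) x1 z]
      by_cases hd : sst p.Lm U.2.1 K (k + 1) (2 ^ k * ix k x1) (2 ^ k * ix k z)
      · have c1 : ix k x1 = ix k (2 ^ k * ix k x1) := (H769.ix_two_pow_mul k _).symm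
        have c2 : ix k z = ix k (2 ^ k * ix k z) := (H769.ix_two_pow_mul k _).symm
        have hs1 : sst p.Lm U.2.1 K (k + 1) x1 z :=
          (H769.sst_congr (H769.ix_of_le (Nat.le_succ k) c1)
            (H769.ix_of_le (Nat.le_succ k) c2)).2 hd
        have e3 : wl p ez U K F2 x1 z (k + 1) x0 = 0 := by
          unfold H808.wl
          rw [H816.kF_dead hs1]
          ring
        rw [e3, zero_mul]
        rw [e3, zero_mul] at hn
        split_ifs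
        · exact le_rfl
        · exact le_rfl
      · have hx' : ix (K - k) (ix k x1) = ix K x.1 := by
          rw [ix_ix, Nat.add_sub_cancel' hk'.le]
          exact mem_iv.1 hx1
        have hz' : ix (K - k) (ix k z) = ix K x.2.2 := by
          rw [ix_ix, Nat.add_sub_cancel' hk'.le]
          exact mem_iv.1 hz
        rw [if_pos (show QL p.Lm U.2.1 K Q2 (ix K x.1) (ix K x.2.2) k (ix k x0) (ix k x1) (ix k z)
          from ⟨hQ, hd, hx', hz'⟩)]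
    · rw [if_neg hc]
      split_ifs
      · exact hn
      · exact le_rfl
  refine h1.trans ((sum_le_sum fun x1 _ => sum_le_sum fun z _ =>
    line_born ht hs hr hez o hKn x U u v q2 hσ J lam t x1 z).trans ?_)
  have h8 : (8 : ℝ) ^ K = 2 ^ K * 4 ^ K := by rw [← mul_pow]; norm_num
  -- the majorant
  have g1 : ∑ x1 ∈ iv K (cx K x).1, ∑ z ∈ iv K (cx K x).2.2, (lam : ℝ) * 1 *
      ∑ x0 ∈ iv K t, (beI p r * (v x1 z ⬝ᵥ v x1 z) +
        mxT (p.lam s r) K (cx K x).2.1 (KT (p.lam s r) u x1) (v x1 z) J (o - 2) x1 z x0) ≤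
      lam * ((beI p r + 2 / 2 ^ J) * (s * 8 ^ K)) +
      lam * ∑ x1 ∈ iv K (cx K x).1, ∑ z ∈ iv K (cx K x).2.2, 1 * (2 ^ K *
        (10 * J * (p.lam s r)⁻¹ * (v x1 z ⬝ᵥ GT u x1 K (cx K x).2.1 *ᵥ v x1 z))) := by
    have k1 : ∀ x1 z, (lam : ℝ) * 1 * ∑ x0 ∈ iv K t, (beI p r * (v x1 z ⬝ᵥ v x1 z) +
        mxT (p.lam s r) K (cx K x).2.1 (KT (p.lam s r) u x1) (v x1 z) J (o - 2) x1 z x0) ≤
        lam * ((beI p r + 2 / 2 ^ J) * 2 ^ K * (v x1 z ⬝ᵥ v x1 z)) + lam * (1 * (2 ^ K *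
        (10 * J * (p.lam s r)⁻¹ * (v x1 z ⬝ᵥ GT u x1 K (cx K x).2.1 *ᵥ v x1 z)))) := by
      intro x1 z
      have k2 := sum_mxT (M := (cx K x).2.1) (tr_T hl K u x1) (v x1 z) J (o - 2) x1 z t
      rw [sum_add_distrib, sum_const, PL.card_iv, nsmul_eq_mul, mul_one, ← mul_add]
      refine mul_le_mul_of_nonneg_left ?_ (Nat.cast_nonneg _)
      push_cast
      refine (add_le_add le_rfl k2).trans (le_of_eq ?_)
      ring
    refine (sum_le_sum fun x1 _ => sum_le_sum fun z _ => k1 x1 z).trans ?_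
    simp only [sum_add_distrib, ← mul_sum]
    refine add_le_add (mul_le_mul_of_nonneg_left ?_ (Nat.cast_nonneg _)) le_rfl
    have k3 := mul_le_mul_of_nonneg_left (mass_root hcls)
      (show 0 ≤ (beI p r + 2 / 2 ^ J) * 2 ^ K by positivity)
    refine k3.trans (le_of_eq ?_)
    rw [h8]
    ring
  have g2 : ∑ x1 ∈ iv K (cx K x).1, ∑ z ∈ iv K (cx K x).2.2, 1 * ((beI p r + 2) *
      (v x1 z ⬝ᵥ v x1 z) * ∑ x0 ∈ iv K t,
      ((cq (fun l j => QL p.Lm U.2.1 K Q2 (ix K x.1) (ix K x.2.2) l j (ix l x1) (ix l z)) K 0 x0 -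
        lam : ℕ) : ℝ)) ≤
      (beI p r + 2) * (4 * p.Lm * s) * (1 - 1 / (cP + 2)) ^ lam * (cP + 2) * 8 ^ K := by
    refine le_trans (le_of_eq ?_) (tailL (K := K) (X := x.1) (Y := x.2.2) q2 hcP hKn hLm.le hs.le
      hcls.U_v2 (κ := beI p r + 2) (by positivity)
      (c := fun x1 z => (beI p r + 2) * (v x1 z ⬝ᵥ v x1 z)) (fun x1 hx1 z hz =>
        mul_le_mul_of_nonneg_left (hcd.maj x1 hx1 z hz) (by positivity)) t lam)
    rw [H224.sum3_comm]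
    refine sum_congr rfl fun x1 _ => sum_congr rfl fun z _ => ?_
    rw [one_mul, mul_sum]
  refine le_trans (le_of_eq ?_) (add_le_add g1 g2)
  rw [← sum_add_distrib]
  exact sum_congr rfl fun x1 _ => sum_add_distrib ..

end pt

/-- the tail of the packing -/
theorem tail_half {B : ℝ} (hB : 1 ≤ B) {h : ℕ} (hh : B ≤ h) (J : ℕ) :
    (1 - 1 / B) ^ (h * J) ≤ (1 / 2 : ℝ) ^ J := by
  have hB0 : 0 < B := by linarith
  have h0 : 0 ≤ 1 - 1 / B := by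
    have : 1 / B ≤ 1 := by
      rw [div_le_one hB0]
      exact hB
    linarith
  rw [pow_mul]
  refine pow_le_pow_left₀ (pow_nonneg h0 _) ?_ J
  have h1 : 1 - 1 / B ≤ Real.exp (-(1 / B)) := by
    have := Real.add_one_le_exp (-(1 / B))
    linarith
  have h2 : (1 - 1 / B) ^ h ≤ Real.exp (-(1 / B)) ^ h := pow_le_pow_left₀ h0 h1 h
  rw [← Real.exp_nat_mul] at h2
  have h3 : (h : ℝ) * -(1 / B) ≤ -1 := by
    have : 1 ≤ (h : ℝ) * (1 / B) := by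
      rw [mul_one_div, le_div_iff₀ hB0, one_mul]
      exact hh
    linarith
  have h4 : Real.exp ((h : ℝ) * -(1 / B)) ≤ Real.exp (-1) := Real.exp_le_exp.2 h3
  have h5 : Real.exp (-1) ≤ 1 / 2 := by
    rw [Real.exp_neg, one_div]
    refine inv_anti₀ (by norm_num) ?_
    have := Real.exp_one_gt_d9
    linarith
  linarith

theorem cube_ge {x : ℝ} (h : 0 ≤ x) : x ≤ (x + 1) ^ 3 ∧ x * x ≤ (x + 1) ^ 3 := by
  have e : (x + 1) ^ 3 = x * x * x + 3 * (x * x) + 3 * x + 1 := by ring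
  have h1 : 0 ≤ x * x := mul_nonneg h h
  have h2 : 0 ≤ x * x * x := mul_nonneg h1 h
  rw [e]
  constructor <;> linarith

/-- **The births of the stack against the weight at coarser scales.** -/
theorem fBornS : FBornS := by
  intro a ha ha1
  refine ⟨1, one_pos, fun e0 he0 he0' => ⟨1, one_pos, fun k8 _ _ => ⟨1, one_pos, fun k3 _ _ δ hδ =>
    ⟨δ / 2, δ, by positivity, hδ, fun c hc hcc d hd hdd Kt e cP L hK he hcP hL => ?_⟩⟩⟩⟩
  obtain ⟨C1, hC1, HJ⟩ := H808.exists_levels (δ := δ / 2) (by positivity)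
  have hL0 : 0 ≤ L := by linarith
  set h : ℕ := ⌈cP + 2⌉₊ with hh
  have hhB : cP + 2 ≤ (h : ℝ) := Nat.le_ceil _
  have hh0 : (0 : ℝ) ≤ h := Nat.cast_nonneg h
  refine ⟨6 * h * C1 + 30 * h * C1 * L + 36 * (cP + 2), by positivity, ?_⟩
  intro t ht ht1 n ez F1 F2 F3 h1 h3 h2 o ho K hKn x ι _ _ s r U g u v hs hr hcls Q1 Q2 Q3 q1 q2 q3
    hez σ hσ
  set p : H401.Num := ⟨a, e0, k8, k3, c, d, Kt, e, cP, L, 1, t⟩ with hp
  have hr0 : 0 < r := by linarith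
  have ept : p.t = t := rfl
  have epe : p.e0 = e0 := rfl
  rw [ept, epe]
  set y : ℝ := t / r with hy
  have hy0 : 0 < y := div_pos ht hr0
  have hyt : y ≤ t := by
    rw [hy, div_le_iff₀ hr0]
    nlinarith
  have hy1 : y ≤ 1 := hyt.trans ht1
  obtain ⟨J, hJ1, hJ2⟩ := HJ y hy0 hy1
  have hl : 0 < p.lam s r := H401.Num.lam_pos (p := p) ht hs hr
  have hP : 0 ≤ L * t ^ (2 - c) * √s := by positivity
  have key := sum_le_sum fun (q : ℤ) (_ : q ∈ rt (cx K x)) => root_born (p := p) ht hs hr hez hcP o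
    hKn q2 hcls.toCls hσ J (h * J) q
  have hbe : beI p r = y ^ (e0 / 2) := rfl
  have hB0 : 0 < y ^ (e0 / 2) := Real.rpow_pos_of_pos hy0 _
  have hB1 : y ^ (e0 / 2) ≤ 1 := Real.rpow_le_one hy0.le hy1 (by linarith)
  have hD0 : 0 < y ^ (-δ) := Real.rpow_pos_of_pos hy0 _
  have hE0 : 0 < y ^ (-(δ / 2)) := Real.rpow_pos_of_pos hy0 _
  have hLm0 : 0 < p.Lm := Real.rpow_pos_of_pos ht _
  have hLm : p.Lm ≤ y ^ (-δ) := by
    show t ^ (-d) ≤ _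
    calc t ^ (-d) ≤ y ^ (-d) := by
          rw [Real.rpow_neg ht.le, Real.rpow_neg hy0.le]
          exact inv_anti₀ (Real.rpow_pos_of_pos hy0 _) (Real.rpow_le_rpow hy0.le hyt hd.le)
      _ ≤ y ^ (-δ) := Real.rpow_le_rpow_of_exponent_ge hy0 hy1 (by linarith)
  have hED : y ^ (-(δ / 2)) ≤ y ^ (-δ) :=
    Real.rpow_le_rpow_of_exponent_ge hy0 hy1 (by linarith)
  have hdd' : y ^ (-(δ / 2)) * y ^ (-(δ / 2)) = y ^ (-δ) := by
    rw [← Real.rpow_add hy0]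
    congr 1
    ring
  have hee : y ^ e0 ≤ y ^ (e0 / 2) := Real.rpow_le_rpow_of_exponent_ge hy0 hy1 (by linarith)
  have hV : 0 ≤ s * 8 ^ K := by positivity
  have hgap : L * t ^ (2 - c) * √s / p.lam s r ≤ L * (y ^ (-(δ / 2)) * y ^ e0) :=
    gap_le ht ht1 hs hr hL0 hc hcc
  have h2J : (0 : ℝ) < 2 ^ J := by positivity
  have hq3 : 2 / 2 ^ J ≤ y ^ (e0 / 2) := by
    have h3 : 0 < y ^ (-3 : ℝ) := Real.rpow_pos_of_pos hy0 _
    have h4 : y ^ (3 : ℝ) * y ^ (-3 : ℝ) = 1 := by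
      rw [← Real.rpow_add hy0]
      norm_num
    have h5 : 2 / 2 ^ J ≤ y ^ (3 : ℝ) := by
      rw [div_le_iff₀ h2J]
      have h6 : 0 < y ^ (3 : ℝ) := Real.rpow_pos_of_pos hy0 _
      have h7 := mul_le_mul_of_nonneg_left hJ1 h6.le
      nlinarith
    exact h5.trans (Real.rpow_le_rpow_of_exponent_ge hy0 hy1 (by linarith))
  have hqt : (1 - 1 / (cP + 2)) ^ (h * J) ≤ y ^ (e0 / 2) := by
    refine (tail_half (by linarith) hhB J).trans (le_trans ?_ hq3)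
    rw [one_div, inv_pow, ← one_div]
    exact div_le_div_of_nonneg_right (by norm_num) h2J.le
  have hJ0 : (0 : ℝ) ≤ J := Nat.cast_nonneg J
  have hlev : (h : ℝ) * J ≤ h * (C1 * y ^ (-(δ / 2))) := by
    exact mul_le_mul_of_nonneg_left ((cube_ge hJ0).1.trans hJ2) hh0
  have hlev2 : (h : ℝ) * J * J ≤ h * (C1 * y ^ (-(δ / 2))) := by
    rw [mul_assoc]
    exact mul_le_mul_of_nonneg_left ((cube_ge hJ0).2.trans hJ2) hh0
  refine key.trans ?_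
  rw [sum_const, rt_card, nsmul_eq_mul]
  have hpot := pot_root' hP hcls.toCls hl (M := 10 * J) (by positivity)
  rw [sum_const, rt_card, nsmul_eq_mul] at hpot
  have hlam0 : (0 : ℝ) ≤ ((h * J : ℕ) : ℝ) := Nat.cast_nonneg _
  have hcast : ((h * J : ℕ) : ℝ) = h * J := by push_cast; ring
  have t1 : ((3 : ℕ) : ℝ) * (((h * J : ℕ) : ℝ) * ((beI p r + 2 / 2 ^ J) * (s * 8 ^ K))) ≤
      6 * h * C1 * (y ^ (-δ) * (s * 8 ^ K) * y ^ (e0 / 2)) := by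
    rw [hbe, hcast]
    push_cast
    calc 3 * ((h : ℝ) * J * ((y ^ (e0 / 2) + 2 / 2 ^ J) * (s * 8 ^ K))) ≤
          3 * (h * (C1 * y ^ (-(δ / 2))) * ((y ^ (e0 / 2) + y ^ (e0 / 2)) * (s * 8 ^ K))) := by
          refine mul_le_mul_of_nonneg_left (mul_le_mul hlev (mul_le_mul_of_nonneg_right
            (add_le_add le_rfl hq3) hV) (by positivity) (by positivity)) (by norm_num)
      _ = y ^ (-(δ / 2)) * (6 * h * C1 * ((s * 8 ^ K) * y ^ (e0 / 2))) := by ring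
      _ ≤ y ^ (-δ) * (6 * h * C1 * ((s * 8 ^ K) * y ^ (e0 / 2))) :=
        mul_le_mul_of_nonneg_right hED (by positivity)
      _ = _ := by ring
  have t2 : ((h * J : ℕ) : ℝ) * (3 * (10 * J) * (L * t ^ (2 - c) * √s / p.lam s r) *
      (s * 8 ^ K)) ≤ 30 * h * C1 * L * (y ^ (-δ) * (s * 8 ^ K) * y ^ (e0 / 2)) := by
    rw [hcast]
    calc (h : ℝ) * J * (3 * (10 * J) * (L * t ^ (2 - c) * √s / p.lam s r) * (s * 8 ^ K)) =
          30 * ((h : ℝ) * J * J * (L * t ^ (2 - c) * √s / p.lam s r)) * (s * 8 ^ K) := by ring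
      _ ≤ 30 * (h * (C1 * y ^ (-(δ / 2))) * (L * (y ^ (-(δ / 2)) * y ^ e0))) * (s * 8 ^ K) := by
          refine mul_le_mul_of_nonneg_right (mul_le_mul_of_nonneg_left
            (mul_le_mul hlev2 hgap (by positivity) (by positivity)) (by norm_num)) hV
      _ = 30 * h * C1 * L * ((y ^ (-(δ / 2)) * y ^ (-(δ / 2))) * (s * 8 ^ K) * y ^ e0) := by ring
      _ ≤ 30 * h * C1 * L * ((y ^ (-(δ / 2)) * y ^ (-(δ / 2))) * (s * 8 ^ K) * y ^ (e0 / 2)) := by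
          refine mul_le_mul_of_nonneg_left (mul_le_mul_of_nonneg_left hee (by positivity))
            (by positivity)
      _ = _ := by rw [hdd']
  have t3 : ((3 : ℕ) : ℝ) * ((beI p r + 2) * (4 * p.Lm * s) * (1 - 1 / (cP + 2)) ^ (h * J) *
      (cP + 2) * 8 ^ K) ≤ 36 * (cP + 2) * (y ^ (-δ) * (s * 8 ^ K) * y ^ (e0 / 2)) := by
    rw [hbe]
    push_cast
    have hB2 : 0 ≤ 1 - 1 / (cP + 2) := by
      have : 1 / (cP + 2) ≤ 1 := by
        rw [div_le_one (by linarith)]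
        linarith
      linarith
    calc 3 * ((y ^ (e0 / 2) + 2) * (4 * p.Lm * s) * (1 - 1 / (cP + 2)) ^ (h * J) * (cP + 2) *
          8 ^ K) = ((y ^ (e0 / 2) + 2) * p.Lm * (1 - 1 / (cP + 2)) ^ (h * J)) *
          (12 * (cP + 2) * (s * 8 ^ K)) := by ring
      _ ≤ (3 * y ^ (-δ) * y ^ (e0 / 2)) * (12 * (cP + 2) * (s * 8 ^ K)) := by
          refine mul_le_mul_of_nonneg_right ?_ (by positivity)
          exact mul_le_mul (mul_le_mul (by linarith) hLm hLm0.le (by norm_num)) hqt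
            (pow_nonneg hB2 _) (by positivity)
      _ = _ := by ring
  have t2' := (mul_le_mul_of_nonneg_left hpot hlam0).trans t2
  refine le_trans (le_of_eq ?_) ((add_le_add (add_le_add t1 t2') t3).trans (le_of_eq ?_))
  · ring
  · ring

/-- **The births of the stack, every lag.** -/
theorem fBornL : FBornL :=
  H408.PairQ.imp fBornS fun _ _ _ _ _ _ _ _ _ _ K _ _ _ _ _ _ _ _ _ _ _ h l =>
    h (fun k => min (k + l) K) fun _ hk => ⟨le_min (Nat.le_add_right _ _) hk.le, min_le_right _ _⟩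

end

end Vale.Agent.P141.H302
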